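import Vale.Agent.P216.V1.Defs
import Vale.Agent.P231.WA.Deg
import Vale.Agent.P216.H285V.Colim

/-!
# P216-V, V1-G: germs of forms

`fC D : Cdga ℝ (Form D)`: the cdga of forms on a diffeological space.
`Fam P`: an increasing family of diffeologies `D ε` (`ε ∈ ℝ`) on `P`. `F.GA`: the germs for
`ε → 0` of forms, `F.cdga : Cdga ℝ F.GA`, `F.germ hε`, `F.exists_germ`, `F.germ_eq`, `F.mem_deg`,
`F.mem_Z`, `F.mem_B`, `Fam.pull` (functoriality).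
`vr X : Fam (E →₀ ℝ)` : the small measures on `X`; `GA X`.
-/

set_option linter.unusedSectionVars false
set_option linter.unusedVariables false

namespace Vale.Agent.P216.H285V

open Vale.Agent.P231.Fm Vale.Agent.P216.V1
open Vale.Agent.P216.V609 (Cdga)
open Vale.Agent.P216.V706 (Dga)

noncomputable section

/-! ### The cdga of forms -/

/-- the homogeneous forms -/
def degF {X : Type*} (D : Dif X) (q : ℕ) : Submodule ℝ (Form D) where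
  carrier := {w | Form.IsDeg q w}
  add_mem' h1 h2 := Form.IsDeg.add h1 h2
  zero_mem' := Form.IsDeg.zero q
  smul_mem' c _ h := Form.IsDeg.smul c h

theorem mem_degF {X : Type*} {D : Dif X} {q : ℕ} {w : Form D} :
    w ∈ degF D q ↔ Form.IsDeg q w := Iff.rfl

/-- the sign involution -/
def sgF {X : Type*} (D : Dif X) : Form D →ₐ[ℝ] Form D :=
  AlgHom.ofLinearMap
    { toFun := Form.sg
      map_add' := Form.sg_add
      map_smul' := Form.sg_smul }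
    Form.sg_one Form.sg_mul

theorem sgF_apply {X : Type*} {D : Dif X} (w : Form D) : sgF D w = w.sg := rfl

/-- **the cdga of forms** -/
def fC {X : Type*} (D : Dif X) : Cdga ℝ (Form D) where
  deg := degF D
  sg := sgF D
  d := Form.dL
  one_mem := Form.IsDeg.one
  mul_mem h1 h2 := Form.IsDeg.mul h1 h2
  sg_deg h := Form.IsDeg.sg h
  sg_sg a := Form.sg_sg a
  sg_d a := by
    show a.d.sg = -a.sg.d
    rw [Form.d_sg, neg_neg]
  comm := by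
    intro p a ha b
    have h0 : Form.IsDeg p a := ha
    have h1 : ∀ n : ℕ, (sgF D)^[2 * n] b = b := by
      intro n
      induction n with
      | zero => rfl
      | succ n ih =>
        rw [show 2 * (n + 1) = 2 * n + 1 + 1 by ring, Function.iterate_succ_apply',
          Function.iterate_succ_apply', ih, sgF_apply, sgF_apply, Form.sg_sg]
    rcases Nat.even_or_odd p with ⟨n, hn⟩ | ⟨n, hn⟩
    · rw [hn, ← two_mul, h1]
      exact Form.mul_comm_of_even (h0.sg_of_even ⟨n, hn⟩) b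
    · have h2 : (sgF D)^[2 * n + 1] b = sgF D ((sgF D)^[2 * n] b) :=
        Function.iterate_succ_apply' _ _ _
      rw [hn, h2, h1, sgF_apply]
      exact Form.mul_of_odd (h0.sg_of_odd ⟨n, hn⟩) b
  d_mem h := Form.IsDeg.d h
  d_d a := Form.d_d a
  leib a b := Form.d_mul a b

theorem fC_d {X : Type*} {D : Dif X} (w : Form D) : (fC D).d w = w.d := rfl

theorem mem_fC_deg {X : Type*} {D : Dif X} {q : ℕ} {w : Form D} :
    w ∈ (fC D).deg q ↔ Form.IsDeg q w := Iff.rfl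

theorem mem_fC_Z {X : Type*} {D : Dif X} {q : ℕ} {w : Form D} :
    w ∈ (fC D).Z q ↔ Form.IsDeg q w ∧ w.d = 0 := Iff.rfl

theorem mem_fC_B {X : Type*} {D : Dif X} {q : ℕ} {w : Form D} :
    w ∈ (fC D).B (q + 1) ↔ ∃ b, Form.IsDeg q b ∧ b.d = w := Iff.rfl

/-- pull back as a morphism of cdgas -/
def fHom {X Y : Type*} {D : Dif X} {D' : Dif Y} (f : X → Y) (hf : D.Map D' f) :
    Cdga.Hom (fC D') (fC D) where
  f := Form.pullA f hf
  deg h := Form.IsDeg.pull h f hf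
  sg a := Form.pull_sg f hf a
  d a := Form.pull_d f hf a

theorem fHom_apply {X Y : Type*} {D : Dif X} {D' : Dif Y} (f : X → Y) (hf : D.Map D' f)
    (a : Form D') : (fHom f hf).f a = Form.pull f hf a := rfl

/-- two factorisations of the same map -/
theorem pull_pull_eq {X Y Z W : Type*} {D : Dif X} {D₁ : Dif Y} {D₁' : Dif W} {D₂ : Dif Z}
    {f : X → Y} {g : Y → Z} {f' : X → W} {g' : W → Z} (hf : D.Map D₁ f) (hg : D₁.Map D₂ g)
    (hf' : D.Map D₁' f') (hg' : D₁'.Map D₂ g') (h : g ∘ f = g' ∘ f') (w : Form D₂) :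
    Form.pull f hf (Form.pull g hg w) = Form.pull f' hf' (Form.pull g' hg' w) := by
  rw [← Form.pull_comp hf hg (Dif.Map.comp hg hf), ← Form.pull_comp hf' hg' (Dif.Map.comp hg' hf')]
  exact Form.pull_congr _ _ h w

/-! ### Scales -/

/-- the scales; the small ones are the late ones -/
def Sc : Type := {ε : ℝ // 0 < ε}ᵒᵈ

instance : Preorder Sc := inferInstanceAs (Preorder {ε : ℝ // 0 < ε}ᵒᵈ)

instance : IsDirectedOrder Sc := inferInstanceAs (IsDirectedOrder {ε : ℝ // 0 < ε}ᵒᵈ)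

instance : Nonempty Sc := ⟨OrderDual.toDual ⟨1, one_pos⟩⟩

/-- the value of a scale -/
def Sc.v (i : Sc) : ℝ := (OrderDual.ofDual i).1

theorem Sc.pos (i : Sc) : 0 < i.v := (OrderDual.ofDual i).2

theorem Sc.le_iff {i j : Sc} : i ≤ j ↔ j.v ≤ i.v := Iff.rfl

/-- the scale `ε` -/
def Sc.mk (ε : ℝ) (h : 0 < ε) : Sc := OrderDual.toDual ⟨ε, h⟩

@[simp] theorem Sc.v_mk (ε : ℝ) (h : 0 < ε) : (Sc.mk ε h).v = ε := rfl

@[simp] theorem Sc.mk_v (i : Sc) : Sc.mk i.v i.pos = i := rfl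

/-! ### Families of diffeologies -/

/-- an increasing family of diffeologies -/
structure Fam (P : Type) where
  D : ℝ → Dif P
  mono : ∀ {ε ε' : ℝ}, ε ≤ ε' → (D ε).Map (D ε') id

namespace Fam

variable {P P' P'' : Type} (F : Fam P) (F' : Fam P') (F'' : Fam P'')

/-- restriction to a smaller scale -/
def res {ε ε' : ℝ} (h : ε ≤ ε') : Form (F.D ε') →ₐ[ℝ] Form (F.D ε) := Form.pullA id (F.mono h)

theorem res_apply {ε ε' : ℝ} (h : ε ≤ ε') (w : Form (F.D ε')) :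
    F.res h w = Form.pull id (F.mono h) w := rfl

theorem res_self {ε : ℝ} (h : ε ≤ ε) (w : Form (F.D ε)) : F.res h w = w := Form.pull_id (F.mono h) w

theorem res_res {a b c : ℝ} (h : a ≤ b) (h' : b ≤ c) (w : Form (F.D c)) :
    F.res h (F.res h' w) = F.res (h.trans h') w :=
  (Form.pull_comp (f := id) (g := id) (F.mono h) (F.mono h') (F.mono (h.trans h')) w).symm

theorem res_d {ε ε' : ℝ} (h : ε ≤ ε') (w : Form (F.D ε')) : (F.res h w).d = F.res h w.d :=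
  (Form.pull_d id (F.mono h) w).symm

/-- the system of the forms at all scales -/
def sys : Sys ℝ (fun i : Sc => Form (F.D i.v)) where
  C i := fC (F.D i.v)
  f i j h := fHom id (F.mono (Sc.le_iff.1 h))
  map_self i x := F.res_self (Sc.le_iff.1 (le_refl i)) x
  map_map i j l hij hjl x := F.res_res (Sc.le_iff.1 hjl) (Sc.le_iff.1 hij) x

/-- **the germs of forms** -/
def GA : Type 1 := F.sys.L

instance : Ring F.GA := inferInstanceAs (Ring F.sys.L)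

instance : Algebra ℝ F.GA := inferInstanceAs (Algebra ℝ F.sys.L)

/-- **the cdga of germs of forms** -/
def cdga : Cdga ℝ F.GA := F.sys.cdga

/-- the same in the frame of 706 -/
def dga : Dga ℝ F.GA := toDga two_ne_zero F.cdga

/-- the germ of a form -/
def germ {ε : ℝ} (h : 0 < ε) : Form (F.D ε) →ₐ[ℝ] F.GA := F.sys.of (Sc.mk ε h)

theorem germ_res {ε ε' : ℝ} (h : 0 < ε) (h' : 0 < ε') (hε : ε ≤ ε') (w : Form (F.D ε')) :
    F.germ h (F.res hε w) = F.germ h' w :=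
  F.sys.of_map (i := Sc.mk ε' h') (j := Sc.mk ε h) (Sc.le_iff.2 hε) w

theorem exists_germ (z : F.GA) : ∃ (ε : ℝ) (h : 0 < ε) (w : Form (F.D ε)), z = F.germ h w := by
  obtain ⟨i, x, hx⟩ := F.sys.exists_of z
  exact ⟨i.v, i.pos, x, hx⟩

theorem exists_germ_le (z : F.GA) {ε₀ : ℝ} (h₀ : 0 < ε₀) :
    ∃ (ε : ℝ) (h : 0 < ε), ε ≤ ε₀ ∧ ∃ w : Form (F.D ε), z = F.germ h w := by
  obtain ⟨i, hi, x, hx⟩ := F.sys.exists_of_ge z (Sc.mk ε₀ h₀)
  exact ⟨i.v, i.pos, hi, x, hx⟩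

theorem exists_germ₂ (z z' : F.GA) : ∃ (ε : ℝ) (h : 0 < ε) (w w' : Form (F.D ε)),
    z = F.germ h w ∧ z' = F.germ h w' := by
  obtain ⟨i, x, y, hx, hy⟩ := F.sys.exists_of₂ z z'
  exact ⟨i.v, i.pos, x, y, hx, hy⟩

theorem germ_eq {ε ε' : ℝ} {h : 0 < ε} {h' : 0 < ε'} {w : Form (F.D ε)} {w' : Form (F.D ε')} :
    F.germ h w = F.germ h' w' ↔ ∃ (δ : ℝ) (h1 : δ ≤ ε) (h2 : δ ≤ ε'), 0 < δ ∧
      F.res h1 w = F.res h2 w' := by
  refine F.sys.of_eq_of.trans ⟨?_, ?_⟩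
  · rintro ⟨l, hi, hj, h⟩
    exact ⟨l.v, hi, hj, l.pos, h⟩
  · rintro ⟨δ, h1, h2, h3, h4⟩
    exact ⟨Sc.mk δ h3, h1, h2, h4⟩

theorem germ_eq_zero {ε : ℝ} {h : 0 < ε} {w : Form (F.D ε)} :
    F.germ h w = 0 ↔ ∃ (δ : ℝ) (h1 : δ ≤ ε), 0 < δ ∧ F.res h1 w = 0 := by
  refine F.sys.of_eq_zero.trans ⟨?_, ?_⟩
  · rintro ⟨l, hi, h⟩
    exact ⟨l.v, hi, l.pos, h⟩
  · rintro ⟨δ, h1, h3, h4⟩
    exact ⟨Sc.mk δ h3, h1, h4⟩

theorem d_germ {ε : ℝ} (h : 0 < ε) (w : Form (F.D ε)) :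
    F.cdga.d (F.germ h w) = F.germ h w.d := rfl

theorem sg_germ {ε : ℝ} (h : 0 < ε) (w : Form (F.D ε)) :
    F.cdga.sg (F.germ h w) = F.germ h w.sg := rfl

theorem mem_deg {ε : ℝ} {h : 0 < ε} {w : Form (F.D ε)} {q : ℕ} :
    F.germ h w ∈ F.cdga.deg q ↔ ∃ (δ : ℝ) (h1 : δ ≤ ε), 0 < δ ∧ Form.IsDeg q (F.res h1 w) := by
  refine F.sys.mem_deg.trans ⟨?_, ?_⟩
  · rintro ⟨l, hi, h⟩
    exact ⟨l.v, hi, l.pos, h⟩
  · rintro ⟨δ, h1, h3, h4⟩
    exact ⟨Sc.mk δ h3, h1, h4⟩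

theorem germ_mem_deg {ε : ℝ} (h : 0 < ε) {w : Form (F.D ε)} {q : ℕ} (hw : Form.IsDeg q w) :
    F.germ h w ∈ F.cdga.deg q := F.sys.of_mem_deg hw

/-- a homogeneous germ is the germ of a homogeneous form, at arbitrarily small scales -/
theorem exists_deg {z : F.GA} {q : ℕ} (hz : z ∈ F.cdga.deg q) {ε₀ : ℝ} (h₀ : 0 < ε₀) :
    ∃ (ε : ℝ) (h : 0 < ε), ε ≤ ε₀ ∧ ∃ w : Form (F.D ε), Form.IsDeg q w ∧ z = F.germ h w := by
  obtain ⟨ε, h, h1, w, rfl⟩ := F.exists_germ_le z h₀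
  obtain ⟨δ, h2, h3, h4⟩ := F.mem_deg.1 hz
  exact ⟨δ, h3, h2.trans h1, F.res h2 w, h4, (F.germ_res h3 h h2 w).symm⟩

theorem mem_Z {ε : ℝ} {h : 0 < ε} {w : Form (F.D ε)} {q : ℕ} :
    F.germ h w ∈ F.cdga.Z q ↔ ∃ (δ : ℝ) (h1 : δ ≤ ε), 0 < δ ∧ Form.IsDeg q (F.res h1 w) ∧
      (F.res h1 w).d = 0 := by
  refine F.sys.mem_Z.trans ⟨?_, ?_⟩
  · rintro ⟨l, hi, h⟩
    exact ⟨l.v, hi, l.pos, h.1, h.2⟩
  · rintro ⟨δ, h1, h3, h4⟩
    exact ⟨Sc.mk δ h3, h1, h4⟩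

theorem germ_mem_Z {ε : ℝ} (h : 0 < ε) {w : Form (F.D ε)} {q : ℕ} (hw : Form.IsDeg q w)
    (hd : w.d = 0) : F.germ h w ∈ F.cdga.Z q :=
  ⟨F.germ_mem_deg h hw, by
    show F.cdga.d (F.germ h w) = 0
    rw [F.d_germ, hd, map_zero]⟩

/-- a closed germ is the germ of a closed form, at arbitrarily small scales -/
theorem exists_Z {z : F.GA} {q : ℕ} (hz : z ∈ F.cdga.Z q) {ε₀ : ℝ} (h₀ : 0 < ε₀) :
    ∃ (ε : ℝ) (h : 0 < ε), ε ≤ ε₀ ∧ ∃ w : Form (F.D ε), Form.IsDeg q w ∧ w.d = 0 ∧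
      z = F.germ h w := by
  obtain ⟨ε, h, h1, w, rfl⟩ := F.exists_germ_le z h₀
  obtain ⟨δ, h2, h3, h4, h5⟩ := F.mem_Z.1 hz
  exact ⟨δ, h3, h2.trans h1, F.res h2 w, h4, h5, (F.germ_res h3 h h2 w).symm⟩

theorem mem_B_succ {ε : ℝ} {h : 0 < ε} {w : Form (F.D ε)} {q : ℕ} :
    F.germ h w ∈ F.cdga.B (q + 1) ↔ ∃ (δ : ℝ) (h1 : δ ≤ ε), 0 < δ ∧ ∃ b, Form.IsDeg q b ∧
      b.d = F.res h1 w := by
  refine F.sys.mem_B.trans ⟨?_, ?_⟩
  · rintro ⟨l, hi, h⟩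
    exact ⟨l.v, hi, l.pos, h⟩
  · rintro ⟨δ, h1, h3, h4⟩
    exact ⟨Sc.mk δ h3, h1, h4⟩

theorem mem_B_zero {z : F.GA} : z ∈ F.cdga.B 0 ↔ z = 0 := Iff.rfl

/-! #### Functoriality -/

variable {F F' F''}

/-- `Φ` maps `F` to `F'` -/
def Map (F : Fam P) (F' : Fam P') (Φ : P → P') : Prop :=
  ∀ ε : ℝ, 0 < ε → ∃ δ : ℝ, 0 < δ ∧ (F.D δ).Map (F'.D ε) Φ

theorem Map.id (F : Fam P) : Map F F id := fun ε h => ⟨ε, h, F.mono le_rfl⟩

theorem Map.comp {Φ : P → P'} {Ψ : P' → P''} (hΨ : Map F' F'' Ψ) (hΦ : Map F F' Φ) :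
    Map F F'' (Ψ ∘ Φ) := by
  intro ε h
  obtain ⟨δ, h1, h2⟩ := hΨ ε h
  obtain ⟨γ, h3, h4⟩ := hΦ δ h1
  exact ⟨γ, h3, Dif.Map.comp h2 h4⟩

/-- the pull back of germs -/
def pull (Φ : P → P') (h : Map F F' Φ) : Cdga.Hom F'.cdga F.cdga :=
  F'.sys.hom F.sys (fun i => Sc.mk (h i.v i.pos).choose (h i.v i.pos).choose_spec.1)
    (fun i => fHom Φ (h i.v i.pos).choose_spec.2) fun i j hij x => by
      obtain ⟨l, h1, h2⟩ := exists_ge_ge
        (Sc.mk (h i.v i.pos).choose (h i.v i.pos).choose_spec.1)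
        (Sc.mk (h j.v j.pos).choose (h j.v j.pos).choose_spec.1)
      refine ⟨l, h1, h2, ?_⟩
      have e1 := Form.pull_comp (h j.v j.pos).choose_spec.2 (F'.mono (Sc.le_iff.1 hij))
        (Dif.Map.comp (F'.mono (Sc.le_iff.1 hij)) (h j.v j.pos).choose_spec.2) x
      refine (congrArg (Form.pull id (F.mono (Sc.le_iff.1 h2))) e1).symm.trans ?_
      exact pull_pull_eq (F.mono (Sc.le_iff.1 h2)) (Dif.Map.comp (F'.mono (Sc.le_iff.1 hij))
        (h j.v j.pos).choose_spec.2) (F.mono (Sc.le_iff.1 h1)) (h i.v i.pos).choose_spec.2 rfl x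

theorem pull_germ (Φ : P → P') (h : Map F F' Φ) {ε δ : ℝ} (hε : 0 < ε) (hδ : 0 < δ)
    (hm : (F.D δ).Map (F'.D ε) Φ) (w : Form (F'.D ε)) :
    (pull Φ h).f (F'.germ hε w) = F.germ hδ (Form.pull Φ hm w) := by
  show F.sys.of (Sc.mk (h ε hε).choose (h ε hε).choose_spec.1)
    (Form.pull Φ (h ε hε).choose_spec.2 w) = F.sys.of (Sc.mk δ hδ) (Form.pull Φ hm w)
  obtain ⟨l, h1, h2⟩ := exists_ge_ge (Sc.mk (h ε hε).choose (h ε hε).choose_spec.1)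
    (Sc.mk δ hδ)
  refine F.sys.of_eq_of.2 ⟨l, h1, h2, ?_⟩
  exact pull_pull_eq (F.mono (Sc.le_iff.1 h1)) (h ε hε).choose_spec.2 (F.mono (Sc.le_iff.1 h2))
    hm rfl w

theorem pull_id (h : Map F F id) (z : F.GA) : (pull id h).f z = z := by
  obtain ⟨ε, hε, w, rfl⟩ := F.exists_germ z
  rw [pull_germ id h hε hε (F.mono le_rfl), Form.pull_id]

theorem pull_comp {Φ : P → P'} {Ψ : P' → P''} (hΨ : Map F' F'' Ψ) (hΦ : Map F F' Φ)
    (h : Map F F'' (Ψ ∘ Φ)) (z : F''.GA) :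
    (pull (Ψ ∘ Φ) h).f z = (pull Φ hΦ).f ((pull Ψ hΨ).f z) := by
  obtain ⟨ε, hε, w, rfl⟩ := F''.exists_germ z
  obtain ⟨δ, h1, h2⟩ := hΨ ε hε
  obtain ⟨γ, h3, h4⟩ := hΦ δ h1
  rw [pull_germ Ψ hΨ hε h1 h2, pull_germ Φ hΦ h1 h3 h4,
    pull_germ (Ψ ∘ Φ) h hε h3 (Dif.Map.comp h2 h4), Form.pull_comp h4 h2]

theorem pull_congr {Φ Ψ : P → P'} (hΦ : Map F F' Φ) (hΨ : Map F F' Ψ) (h : Φ = Ψ) (z : F'.GA) :
    (pull Φ hΦ).f z = (pull Ψ hΨ).f z := by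
  subst h
  rfl

end Fam

/-! ### Small measures -/

variable {E : Type} [PseudoMetricSpace E]

/-- the small measures on `X` -/
def vr (X : Set E) : Fam (E →₀ ℝ) := ⟨DM X, fun h => map_monoM Set.Subset.rfl h⟩

/-- **the germ algebra** -/
abbrev GA (X : Set E) : Type 1 := (vr X).GA

/-- restriction to a subset -/
theorem vr_sub {X Y : Set E} (h : X ⊆ Y) : Fam.Map (vr X) (vr Y) id :=
  fun ε hε => ⟨ε, hε, map_monoM h le_rfl⟩

end

end Vale.Agent.P216.H285V
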